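import Vale.Agent.P218HB.Defs
import Vale.Agent.P218EN.Cyl
import Vale.Agent.P218XI.Fun
import Vale.Agent.P218PB.Psi
import Vale.Agent.P218TP.GDefs
import Vale.Agent.P218ND.Brg3
import Vale.Agent.P218VA.Cfg
import Vale.Agent.P218LB.Book

/-! # The output of the static construction

`X W z` is the complex surface with cylindrical ends cut at the heights `W` and with canonical
parameters `z`. -/

open Set Filter Topology Metric MeasureTheory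
open scoped Matrix ContDiff

set_option linter.unusedSectionVars false

namespace Vale.Agent.P218ST

open Vale.Agent.P218GA Vale.Agent.P218HB Vale.Agent.P272.K.LIN
open Vale.Agent.P218SQ (Pt Adm ofReal)
open Vale.Agent.P218VA (E2 C3 ELM LagM PPF CkAt Yp coreK jac)
open Vale.Agent.P218EN (WA Rg Sol Bd sg om)
open Vale.Agent.P218XI (cylF coneF U0)

/-- a solution of the homogeneous problem on the part `[s, W]` of a cylindrical end -/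
structure CylSol (a0 s W : ℝ) (α : ℂ) (J : Fin 6 → WA) : Prop where
  dom : α ∈ P218CH.D W a0
  rg : Rg a0 s W α
  sol : Sol s W α J 0 (J 0 - J 2) 0
  cls : ∀ n, Bd (Icc s W) (sg a0 α) (om a0 α) (J n) 1
  pin : (J 0).co 0 W = 0

/-- the heights between `s` and `L` -/
def strip (s L : ℝ) : Set (ℝ × ℝ) := {p | s < p.1 ∧ p.1 < L}

variable {S : Set E3} {w : E3 → ℝ} {δ C : ℝ} {ι κ M : Type} [Fintype ι] [Fintype κ]
  [TopologicalSpace M] [ChartedSpace E2 M] [T2Space M] [RSm E2 M] [CompactSpace M]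
  [MeasurableSpace M] [BorelSpace M]

/-- near `x` and in some parametrisation, `X` is a holomorphic family with limit `F` -/
def CoreHF (m : Model S w δ C ι κ M) {τ : Type} [Fintype τ] (c : Cst)
    (X : (ι → ℝ) → Pt ι τ → M → C3) (x : M) : Prop :=
  ∃ e ∈ atlas E2 M, ∃ (T : ℝ × ℝ → E2) (y : ℝ × ℝ), ContDiffAt ℝ 2 T y ∧
    jac (1, 0) (0, 1) T y ≠ 0 ∧ T y ∈ e.target ∧ e.symm (T y) = x ∧
    ∃ U ∈ 𝓝 y, ∃ gb : Pt ι τ → ℝ × ℝ → C3,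
      HF c (1, 0) (0, 1) U (fun W z y' => X W z (e.symm (T y'))) gb ∧
        ∀ y' ∈ U, gb 0 y' = cx (m.F (e.symm (T y')))

/-- The output of the static construction. -/
structure Hub (m : Model S w δ C ι κ M) (τ : Type) [Fintype τ] where
  /-- the domains -/
  c : Cst
  /-- the level of the deep core -/
  sd : ℝ
  /-- the level above which the ends are pure -/
  s : ℝ
  /-- the parameter of the weights on the cylindrical ends -/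
  a0 : ℝ
  /-- a constant -/
  C0 : ℝ
  /-- an exponent -/
  B : ℕ
  /-- the multiplier functions -/
  e : τ ⊕ ι → E3 → ℝ
  /-- the surfaces -/
  X : (ι → ℝ) → Pt ι τ → M → C3
  /-- the heights over the deep core -/
  U : (ι → ℝ) → Pt ι τ → M → ℂ
  /-- the multipliers -/
  lam : (ι → ℝ) → Pt ι τ → τ ⊕ ι → ℂ
  /-- their limit -/
  lamb : Pt ι τ → τ ⊕ ι → ℂ
  /-- the moments -/
  mo : Pt ι τ → τ ⊕ ι → ℂ
  /-- the positions of the axes -/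
  R : (ι → ℝ) → Pt ι τ → ι → Matrix (Fin 3) (Fin 3) ℂ
  /-- their limit -/
  Rb : Pt ι τ → ι → Matrix (Fin 3) (Fin 3) ℂ
  /-- the profile parameters -/
  α : (ι → ℝ) → Pt ι τ → ι → ℂ
  /-- the jets on the cylindrical ends -/
  J : (ι → ℝ) → Pt ι τ → ι → Fin 6 → WA
  /-- the conical ends -/
  t : (ι → ℝ) → Pt ι τ → κ → ℝ × ℝ → ℂ
  /-- their limit -/
  tb : Pt ι τ → κ → ℝ × ℝ → ℂ
  lt : m.w0 < sd
  le : sd ≤ s
  le' : s + 4 ≤ c.w1
  e_cont : ∀ k, Continuous (e k)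
  e_supp : ∀ k x, 4 * sd ≤ ‖x‖ ^ 2 → e k x = 0
  -- the core
  core : ∀ x ∈ coreK m.φ (s + 3), ∃ c' : Cst, c'.Le c ∧ CoreHF m c' X x
  normal : ∀ W z, c.Ok W z → ∀ x ∈ coreK m.φ sd,
    X W z x = cx (m.F x) + U W z x • cx (m.nu x)
  deep : ∀ W z, c.Ok W z → ∀ x ∈ coreK m.φ sd,
    ELM (fun y => cx (m.F y)) (X W z) x (cx (m.nu x)) = ∑ k, lam W z k * (e k (m.F x) : ℝ)
  out : ∀ W z, c.Ok W z → ∀ x ∈ coreK m.φ (s + 3), x ∉ coreK m.φ sd →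
    ∀ V, ELM (fun y => cx (m.F y)) (X W z) x V = 0
  X_real : ∀ W x, c.Ok W (ofReal x) → ∀ y ∈ coreK m.φ (s + 3), ∀ a, (X W (ofReal x) y a).im = 0
  -- multipliers and moments
  lam_hb : HB c univ lam lamb
  lam_zero : lamb 0 = 0
  lam_real : ∀ W x, c.Ok W (ofReal x) → ∀ k, (lam W (ofReal x) k).im = 0
  pin : ∀ W z, c.Ok W z → ∀ k,
    ∫ x in coreK m.φ sd, (e k (m.F x) : ℝ) * U W z x ∂m.mu0 = mo z k
  mo_holo : DifferentiableOn ℂ mo (ball 0 c.r)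
  mo_inj : Function.Injective (fderiv ℂ mo 0)
  solv : ∀ g : E3 → ℝ, ContDiff ℝ ∞ g → HasCompactSupport g → ∃ (u : M → ℝ) (l : τ ⊕ ι → ℝ),
    (∀ x ∈ m.reg, CkAt 2 u x ∧ P218ND.LM m u x = g (m.F x) + ∑ k, l k * e k (m.F x)) ∧
      MemLp u 2 m.mu0
  -- the axes
  orth : ∀ W z, c.Ok W z → ∀ i, (R W z i)ᵀ * R W z i = 1
  R_hb : HB c univ (fun W z (a : ι × Fin 3 × Fin 3) => R W z a.1 a.2.1 a.2.2)
    fun z a => Rb z a.1 a.2.1 a.2.2
  R_lp : Lp c univ fun W z (a : ι × Fin 3 × Fin 3) => R W z a.1 a.2.1 a.2.2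
  R_zero : ∀ i, Rb 0 i = mat (m.Q i)
  R_real : ∀ W x, c.Ok W (ofReal x) → ∀ i a b, (R W (ofReal x) i a b).im = 0
  -- the cylindrical ends
  cyl : ∀ W z, c.Ok W z → ∀ i (p : ℝ × ℝ), s < p.1 → p.1 < W i →
    X W z (Yp m.φ (.inl i) p) = R W z i *ᵥ cylF.Z p.1 p.2 (U0 (α W z i) (J W z i) p)
  cylSol : ∀ W z, c.Ok W z → ∀ i, CylSol a0 s (W i) (α W z i) (J W z i)
  α_holo : ∀ W, Adm c.w1 W → DifferentiableOn ℂ (α W) (c.dom W)
  J_holo : ∀ W, Adm c.w1 W → DifferentiableOn ℂ (J W) (c.dom W)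
  J_lip : ∀ W z, c.Ok W z → ∃ L : ℝ, ∀ᶠ W' in 𝓝 W, c.Ok W' z → ∀ i,
    ‖α W' z i - α W z i‖ ≤ L * ‖W' - W‖ ∧ ∀ n, ∀ v ∈ Icc s (W i), ∀ θ,
      ‖(J W' z i n).ev (P218PB.psi (W i) (W' i - W i) v) θ - (J W z i n).ev v θ‖ ≤ L * ‖W' - W‖
  α_real : ∀ W x, c.Ok W (ofReal x) → ∀ i, (α W (ofReal x) i).im = 0
  J_real : ∀ W x, c.Ok W (ofReal x) → ∀ i n, ∀ v ∈ Icc s (W i), ∀ θ,
    ((J W (ofReal x) i n).ev v θ).im = 0
  tip : ∀ W z, c.Ok W z → ∀ i, ‖z.1 i - P218TP.GG (W i) (α W z i)‖ ≤ C0 * W i ^ (-c.k) / W i ^ 2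
  u_hf : ∀ i L, ∃ (c' : Cst) (ub : Pt ι τ → ℝ × ℝ → ℂ), c'.Le c ∧
    HF c' (1, 0) (0, 1) (strip s L) (fun W z => U0 (α W z i) (J W z i)) ub ∧
      ∀ p ∈ strip s L, ub 0 p = m.U i p ∧ ‖fderiv ℂ (fun z => ub z p) 0‖ ≤ C0 * p.1 ^ B
  -- the conical ends
  cone : ∀ W z, c.Ok W z → ∀ j (p : ℝ × ℝ), s < p.1 →
    X W z (Yp m.φ (.inr j) p) = (coneF (m.L j)).X p.1 p.2 (t W z j p)
  cone_eq : ∀ W z, c.Ok W z → ∀ j (p : ℝ × ℝ), s < p.1 →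
    PPF (1, 0) (0, 1) (fun q : ℝ × ℝ => (coneF (m.L j)).X q.1 q.2 (t W z j q)) p = 0
  t_per : ∀ W z j v θ, t W z j (v, θ + 2 * Real.pi) = t W z j (v, θ)
  t_hn : ∀ j, HN c s (fun W z => t W z j) fun z => tb z j
  t_zero : ∀ j (p : ℝ × ℝ), s < p.1 → tb 0 j p = m.t j p
  t_supp : ∀ W z, c.Ok W z → ∀ j (p : ℝ × ℝ), s < p.1 → p.1 ^ 2 * ‖dw (t W z j) p‖ ≤ C0
  t_real : ∀ W x, c.Ok W (ofReal x) → ∀ j (p : ℝ × ℝ), s < p.1 → (t W (ofReal x) j p).im = 0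

namespace Hub

variable {m : Model S w δ C ι κ M} {τ : Type} [Fintype τ] (H : Hub m τ)

/-- the real surfaces -/
noncomputable def Xr (q : ℕ × (ι → ℝ) × (τ → ℝ)) (y : M) : E3 :=
  P218ND.reV (H.X (fun _ => P218LB.lvl q.1 q.2) (ofReal q.2) y)

/-- the real multipliers -/
noncomputable def lamR (n : ℕ) (a : (ι → ℝ) × (τ → ℝ)) (k : τ ⊕ ι) : ℝ :=
  (H.lam (fun _ => P218LB.lvl n a) (ofReal a) k).re

/-- the linear family of multiplier functions -/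
noncomputable def eL : (τ ⊕ ι → ℝ) →ₗ[ℝ] (E3 → ℝ) := Fintype.linearCombination ℝ H.e

lemma eL_apply (l : τ ⊕ ι → ℝ) (x : E3) : H.eL l x = ∑ k, l k * H.e k x := by
  simp [eL, Fintype.linearCombination_apply]

/-- the part of the model covered by the surface which is cut at the heights `W` -/
def Reg (m : Model S w δ C ι κ M) (W : ι → ℝ) : Set M :=
  {x | x ∈ m.reg ∧ ∀ i (p : ℝ × ℝ), W i ≤ p.1 → x ≠ Yp m.φ (.inl i) p}

/-- The properties of the reduced action `f`. -/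
structure ActOut [DecidableEq ι] (f : (ι → ℝ) → Pt ι τ → ℂ) : Prop where
  tip : ∃ (r w1 C C' k c : ℝ) (B : ℕ), 0 < k ∧ 0 < c ∧ P218SQ.SeqData f 1 H.c.K r w1 C B ∧
    P218TP.ResData f H.c.K r w1 C' k c
  grad : ∃ c' : Cst, c'.Le H.c ∧ ∀ W z, c'.Ok W z →
    HasFDerivAt (f W) (∑ k, H.lam W z k • fderiv ℂ (fun z => H.mo z k) z) z
  area : ∃ (c' : Cst) (A : ℝ), c'.Le H.c ∧ ∀ W x, c'.Ok W (ofReal x) →
    0 ≤ (f W (ofReal x)).re + A * ∑ i, Real.exp (-W i / 2) ∧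
    ∫⁻ y in Reg m W, ENNReal.ofReal (LagM (fun z => cx (m.F z)) (H.X W (ofReal x)) y).re ∂m.mu0
      ≤ ENNReal.ofReal ((f W (ofReal x)).re + A * ∑ i, Real.exp (-W i / 2))
  lim : Tendsto (fun v : ℝ => f (fun _ => v) 0) atTop (𝓝 (m.mu0.real univ : ℝ))

end Hub

end Vale.Agent.P218ST
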