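import Vale.Agent.P218GA.Defs

/-! Statements: the main theorem, and the level-set form of a smooth self-shrinker. -/

open MeasureTheory Set Filter Topology
open scoped ContDiff RealInnerProductSpace

namespace Vale.Agent.P218ST

open Vale.Agent.P218 Vale.Agent.P218GA
open Vale.Agent.P218.H63 (lap IsTubeShrinker)

/-- `S` is the regular zero set of the smooth function `Φ`, and it satisfies the self-shrinker
equation `div ν = ⟨x, ν⟩ / 2`, `ν = ∇Φ / |∇Φ|` (multiplied by `|∇Φ|³`), that is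
`H + x^⊥ / 2 = 0`. -/
structure IsSmoothShrinker (S : Set E3) (Φ : E3 → ℝ) : Prop where
  smooth : ContDiff ℝ ∞ Φ
  mem_iff : ∀ x, x ∈ S ↔ Φ x = 0
  grad_ne : ∀ x ∈ S, gradient Φ x ≠ 0
  shrinker : ∀ x ∈ S, ‖gradient Φ x‖ ^ 2 * lap Φ x
      - ⟪fderiv ℝ (gradient Φ) x (gradient Φ x), gradient Φ x⟫
    = ‖gradient Φ x‖ ^ 2 * ⟪x, gradient Φ x⟫ / 2

/-- uniqueness of the tangent flow at every point of every integral Brakke flow of finite mass at
which some tangent flow is the multiplicity one flow of `S` -/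
def UniqueModel (S : Set E3) : Prop :=
  ∀ μ : ℝ → Measure E3, IsIntegralBrakkeFlow 2 μ → μ 0 univ < ⊤ → ∀ (x₀ : E3) (t₀ : ℝ), 0 < t₀ →
    (∃ ν : ℝ → Measure E3, IsTangentFlow 2 μ x₀ t₀ ν ∧
      ν (-1) = (μH[(2 : ℕ)] : Measure E3).restrict S) →
    TangentFlowUnique 2 μ x₀ t₀ ∧ ∀ ν : ℝ → Measure E3, IsTangentFlow 2 μ x₀ t₀ ν →
      ν (-1) = (μH[(2 : ℕ)] : Measure E3).restrict S

/-- the main theorem, tube form -/
def Main : Prop :=
  ∀ (S : Set E3) (w : E3 → ℝ) (δ C : ℝ), IsTubeShrinker S w δ C → ContDiff ℝ ∞ w →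
    HasCylConeEnds S → UniqueModel S

/-- the main theorem, level-set form -/
def MainSmooth : Prop :=
  ∀ (S : Set E3) (Φ : E3 → ℝ), IsSmoothShrinker S Φ → HasCylConeEnds S → UniqueModel S

end Vale.Agent.P218ST
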