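import Vale.Agent.P218ST.Hub
import Vale.Agent.P218HB.Man
import Vale.Agent.P218CO.Ends

/-! # The surfaces of the static construction form a holomorphic family at every point -/

open Set Filter Topology Metric MeasureTheory
open scoped Matrix ContDiff

set_option linter.unusedSectionVars false

namespace Vale.Agent.P218ST

open Vale.Agent.P218GA Vale.Agent.P218HB Vale.Agent.P272.K.LIN
open Vale.Agent.P218SQ (Pt Adm ofReal)
open Vale.Agent.P218VA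
open Vale.Agent.P218XI
open Vale.Agent.P218CO (ends Ends)

section frame
variable {ι τ : Type} [Fintype ι] [Fintype τ] {c : Cst} {p : ℝ × ℝ}

/-- surfaces in angular coordinates -/
theorem hg_frame (F : Frame) {t : (ι → ℝ) → Pt ι τ → ℝ × ℝ → ℂ} {tb : Pt ι τ → ℝ × ℝ → ℂ}
    (h : HG c (1, 0) (0, 1) p t tb) (hp : 0 < p.1) (h1 : 1 + tb 0 p ^ 2 ≠ 0) :
    HG c (1, 0) (0, 1) p (fun W z q => F.X q.1 q.2 (t W z q)) fun z q => F.X q.1 q.2 (tb z q) := by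
  have h2 : ContDiffAt ℝ 2 (fun q : ℝ × ℝ => (2 * rt q.1, F.γ q.2, F.n q.2)) p :=
    ((contDiffAt_const.mul ((contDiffAt_rt hp).comp p contDiffAt_fst)).prodMk
      ((F.γ_sm.comp contDiff_snd).contDiffAt.prodMk
        (F.n_sm.comp contDiff_snd).contDiffAt)).of_le two_le_inf
  have h3 := h.comp₂ h2 (Θ := fun q : (ℂ × C3 × C3) × ℂ =>
    q.1.1 • (co q.2 • q.1.2.1 + si q.2 • q.1.2.2)) (by
      unfold co si
      fun_prop (disch := exact h1))
  simpa only [Frame.X_eq, Frame.u] using h3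

/-- multiplication by a family of matrices -/
theorem hg_mulVec {D : Type} [NormedAddCommGroup D] [NormedSpace ℝ D] {d1 d2 y : D}
    {X : (ι → ℝ) → Pt ι τ → D → C3} {Xb : Pt ι τ → D → C3} (h : HG c d1 d2 y X Xb)
    {R : (ι → ℝ) → Pt ι τ → Matrix (Fin 3) (Fin 3) ℂ} {Rb : Pt ι τ → Matrix (Fin 3) (Fin 3) ℂ}
    (hR : HB c univ (fun W z (a : Fin 3 × Fin 3) => R W z a.1 a.2) fun z a => Rb z a.1 a.2)
    (hL : Lp c univ fun W z (a : Fin 3 × Fin 3) => R W z a.1 a.2) :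
    HG c d1 d2 y (fun W z q => R W z *ᵥ X W z q) fun z q => Rb z *ᵥ Xb z q :=
  ((HG.pi fun a : Fin 3 × Fin 3 => HG.param hR hL (mem_univ a)).prod h).comp
    (Θ := fun q : (Fin 3 × Fin 3 → ℂ) × C3 => fun a => ∑ b, q.1 (a, b) * q.2 b) (by fun_prop)

end frame

variable {S : Set E3} {w : E3 → ℝ} {δ C : ℝ} {ι κ M : Type} [Fintype ι] [Fintype κ]
  [TopologicalSpace M] [ChartedSpace E2 M] [T2Space M] [RSm E2 M] [CompactSpace M]
  [MeasurableSpace M] [BorelSpace M] {m : Model S w δ C ι κ M} {τ : Type} [Fintype τ] {c : Cst}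
  {X : (ι → ℝ) → Pt ι τ → M → C3} {x : M}

theorem CoreHF.hm (h : CoreHF m c X x) :
    ∃ gb, HM c x X gb ∧ ∀ᶠ y in 𝓝 x, gb 0 y = cx (m.F y) := by
  obtain ⟨e, he, T, y, h1, h2, h3, rfl, U, hU, gb, h4, h5⟩ := h
  obtain ⟨S, a1, a2, a3⟩ := HM.exists_of_param he h3 h1 h2 (h4.hg Cst.Le.rfl hU)
  refine ⟨_, a3, ?_⟩
  filter_upwards [a1 hU, a2] with x b1 b2
  rw [h5 _ b1, b2]

theorem coreHF_of_hm {gb : Pt ι τ → M → C3} (h : HM c x X gb)
    (h0 : ∀ᶠ y in 𝓝 x, gb 0 y = cx (m.F y)) : ∃ c' : Cst, c'.Le c ∧ CoreHF m c' X x := by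
  have hx := mem_chart_source E2 x
  set e := chartAt E2 x
  let T : ℝ × ℝ →L[ℝ] E2 := (ContinuousLinearMap.fst ℝ ℝ ℝ).smulRight u1 +
    (ContinuousLinearMap.snd ℝ ℝ ℝ).smulRight u2
  have h1 : T (e x 0, e x 1) = e x := (E2_decomp (e x)).symm
  have h2 : e.symm (T (e x 0, e x 1)) = x := by rw [h1, e.left_inv hx]
  have h3 : T (e x 0, e x 1) ∈ e.target := by rw [h1]; exact e.map_source hx
  obtain ⟨c', h4, U, hU, -, h5⟩ := (HM.pull (d1 := ((1, 0) : ℝ × ℝ)) (d2 := (0, 1))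
    (chart_mem_atlas E2 x) h3 (h2.symm ▸ h) T.contDiff.contDiffAt).exists_hf
  have h6 : ∀ᶠ y in 𝓝 (e x 0, e x 1), gb 0 (e.symm (T y)) = cx (m.F (e.symm (T y))) :=
    ((tendsto_symm hx).comp (T.continuous.tendsto' _ _ h1)).eventually h0
  refine ⟨c', h4, e, chart_mem_atlas E2 x, T, _, T.contDiff.contDiffAt, ?_, h3, h2, _,
    inter_mem hU h6, _, h5.mono Cst.Le.rfl inter_subset_left, fun y hy => hy.2⟩
  simp only [jac, pd, T.fderiv]
  simp [T, u1, u2]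

/-- a family which is given in polar coordinates -/
theorem hm_of_polar {G : Type} [NormedAddCommGroup G] [NormedSpace ℂ G]
    {g : (ι → ℝ) → Pt ι τ → M → G} {gp : Pt ι τ → ℝ × ℝ → G} {g0 : M → G} {j : ι ⊕ κ} {p : ℝ × ℝ}
    (hp : m.w0 < p.1) (h : HG c (1, 0) (0, 1) p (fun W z q => g W z (Yp m.φ j q)) gp)
    (h0 : ∀ᶠ q in 𝓝 p, gp 0 q = g0 (Yp m.φ j q)) :
    ∃ gb, HM c (Yp m.φ j p) g gb ∧ (∀ᶠ y in 𝓝 (Yp m.φ j p), gb 0 y = g0 y) ∧
      ∀ z, gb z (Yp m.φ j p) = gp z p := by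
  obtain ⟨S, a1, a2, a3⟩ := HM.exists_of_param (m.mem j) (Ends.pol_mem (𝓔 := ends m) j hp)
    contDiff_pol.contDiffAt (jac_pol_ne p) h
  refine ⟨_, a3, ?_, fun z => congrArg (gp z)
    (tendsto_nhds_unique (tendsto_pure_nhds S _) (a1.mono_left (pure_le_nhds _)))⟩
  filter_upwards [a1.eventually h0, a2] with x b1 b2
  rw [b1, Yp, b2]

namespace Hub
variable (H : Hub m τ)

lemma ev_lt (L : ℝ) : ∀ᶠ c' in H.c.sm, ∀ (W : ι → ℝ) (z : Pt ι τ), c'.Ok W z →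
    H.c.Ok W z ∧ ∀ i, L ≤ W i := by
  filter_upwards [H.c.ev_le, H.c.ev_w1 L] with c' h1 h2 W z hz
  exact ⟨h1.ok hz, fun i => h2.trans (hz.1 i).1⟩

lemma w0_lt {p : ℝ × ℝ} (hp : H.s < p.1) : m.w0 < p.1 := by linarith [H.lt, H.le]

/-- the cylindrical ends in polar coordinates -/
theorem hg_cyl (i : ι) {p : ℝ × ℝ} (hp : H.s < p.1) : ∃ ub : Pt ι τ → ℝ × ℝ → ℂ,
    HG H.c (1, 0) (0, 1) p (fun W z => U0 (H.α W z i) (H.J W z i)) ub ∧
    (∀ᶠ q in 𝓝 p, ub 0 q = m.U i q) ∧ ‖fderiv ℂ (fun z => ub z p) 0‖ ≤ H.C0 * p.1 ^ H.B ∧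
    HG H.c (1, 0) (0, 1) p (fun W z q => H.X W z (Yp m.φ (.inl i) q))
      fun z q => H.Rb z i *ᵥ cylF.Z q.1 q.2 (ub z q) := by
  obtain ⟨c', ub, h1, h2, h3⟩ := H.u_hf i (p.1 + 1)
  have h0 : 0 < p.1 := by linarith [H.w0_lt hp, m.one_le]
  have hs : strip H.s (p.1 + 1) ∈ 𝓝 p := (continuous_fst.tendsto p).eventually
    (Ioo_mem_nhds hp (lt_add_one _))
  have h4 := h2.hg h1 hs
  have h5 : HG H.c (1, 0) (0, 1) p (fun W z q => kap q.1 * U0 (H.α W z i) (H.J W z i) q)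
      fun z q => kap q.1 * ub z q := h4.comp₂ (k := fun q : ℝ × ℝ => kap q.1)
    (((contDiffAt_kap h0).of_le two_le_inf).comp p contDiffAt_fst)
    (Θ := fun q : ℂ × ℂ => q.1 * q.2) (by fun_prop)
  have h6 := hg_mulVec (hg_frame cylF h5 h0 (by
      rw [(h3 p (mem_of_mem_nhds hs)).1, kap, ← Complex.ofReal_mul]; exact one_add_sq_ne _))
    (R := fun W z => H.R W z i) (Rb := fun z => H.Rb z i)
    (H.R_hb.pre (T := fun a => (i, a)) (mapsTo_univ _ _))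
    (H.R_lp.pre (T := fun a => (i, a)) (mapsTo_univ _ _))
  refine ⟨ub, h4, mem_of_superset hs fun q hq => (h3 q hq).1, (h3 p (mem_of_mem_nhds hs)).2,
    h6.congr ?_ (.of_forall fun _ => .of_forall fun _ _ _ => rfl)⟩
  filter_upwards [H.ev_lt (p.1 + 1)] with c'' h7
  filter_upwards [hs] with q hq W z hz
  exact H.cyl W z (h7 W z hz).1 i q hq.1 (hq.2.trans_le ((h7 W z hz).2 i))

/-- the conical ends in polar coordinates -/
theorem hg_cone (j : κ) {p : ℝ × ℝ} (hp : H.s < p.1) :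
    HG H.c (1, 0) (0, 1) p (fun W z => H.t W z j) (fun z => H.tb z j) ∧
    HG H.c (1, 0) (0, 1) p (fun W z q => H.X W z (Yp m.φ (.inr j) q))
      fun z q => (coneF (m.L j)).X q.1 q.2 (H.tb z j q) := by
  have hs : {q : ℝ × ℝ | H.s < q.1} ∈ 𝓝 p := (continuous_fst.tendsto p).eventually
    (Ioi_mem_nhds hp)
  have h1 := ((H.t_hn j).hf (by linarith [H.lt, H.le, m.one_le])).hg Cst.Le.rfl hs
  exact ⟨h1, (hg_frame _ h1 (by linarith [H.w0_lt hp, m.one_le]) (by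
    rw [H.t_zero j p hp]; exact one_add_sq_ne _)).congr'
      (mem_of_superset hs fun q hq W z hz => H.cone W z hz j q hq)⟩

/-- **The surfaces form a holomorphic family at every point.** -/
theorem hm_all (hx : x ∈ m.reg) :
    ∃ gb, HM H.c x H.X gb ∧ ∀ᶠ y in 𝓝 x, gb 0 y = cx (m.F y) := by
  by_cases h : x ∈ coreK m.φ (H.s + 3)
  · obtain ⟨c', h1, h2⟩ := H.core x h
    exact h2.hm.imp fun gb h3 => ⟨h3.1.of_le h1, h3.2⟩
  simp only [coreK, mem_ofPred_eq, not_forall, not_le] at h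
  obtain ⟨j, hj, h⟩ := h
  obtain ⟨p, hp, -, rfl⟩ := Ends.exists_Y (𝓔 := ends m) hj (Ends.ne_zero_of_reg hj hx)
  have h1 : H.s < p.1 := by
    rw [show m.φ j ((ends m).Y j p) = pol p from Ends.φ_Y j hp, P218MP.norm_pol,
      Real.exp_lt_exp] at h
    linarith
  have hs := (continuous_fst.tendsto p).eventually (Ioi_mem_nhds h1)
  cases j with
  | inl i =>
    obtain ⟨ub, -, h2, -, h3⟩ := H.hg_cyl i h1
    obtain ⟨gb, a1, a2, -⟩ := hm_of_polar (g0 := fun y => cx (m.F y)) hp h3 (by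
      filter_upwards [h2, hs] with q b1 b2
      rw [b1, H.R_zero, Yp, m.cyl i q (H.w0_lt b2), cx_isometry, cx_xiCyl_Z])
    exact ⟨gb, a1, a2⟩
  | inr j =>
    obtain ⟨gb, a1, a2, -⟩ := hm_of_polar (g0 := fun y => cx (m.F y)) hp (H.hg_cone j h1).2 (by
      filter_upwards [hs] with q b2
      rw [H.t_zero j q b2, Yp, m.cone j q (H.w0_lt b2), cx_xiCone])
    exact ⟨gb, a1, a2⟩

end Hub

end Vale.Agent.P218ST
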