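import Vale.Agent.P218ST.Main
import Vale.Agent.P218HU.Hub
import Vale.Agent.P218CQ.Core
import Vale.Agent.P218TB.Bridge

/-! The static theory assembled: every smooth shrinker with cylindrical and conical ends is a
unique model. -/

namespace Vale.Agent.P218ST

theorem main : Main :=
  main_of_hub fun _ _ _ _ _ _ _ _ _ _ _ _ _ _ m s0 =>
    P218HU.exists_hub_of m (fun _ _ c s δ e O mO _ =>
      P218CQ.coreStatement c s m.mu0 e (fun i => e (.inl i)) δ 1 _ O mO) s0

theorem mainSmooth : MainSmooth := P218TB.mainSmooth_of_main main

end Vale.Agent.P218ST
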