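import Vale.Agent.P218ST.HubL
import Vale.Agent.P218GS.Top
import Vale.Agent.P218AC.Act
import Vale.Agent.P218A2.Real
import Vale.Agent.P218VL.EqnR
import Vale.Agent.P218VL.Grow
import Vale.Agent.P218UX.Pair
import Vale.Agent.P218GE.LinkC
import Vale.Agent.P218SQ.Final
import Vale.Agent.P218TP.Res
import Vale.Agent.P218KE.Pull

/-! # The static construction implies the main theorem -/

open Set Filter Topology Metric MeasureTheory Asymptotics
open scoped RealInnerProductSpace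

set_option linter.unusedSectionVars false

namespace Vale.Agent.P218ST

open Vale.Agent.P218GA Vale.Agent.P218HB Vale.Agent.P272.K.LIN Vale.Agent.P218GE
open Vale.Agent.P218SQ (Pt Adm ofReal)
open Vale.Agent.P218VA (E2 C3 LagM coreK LagM_congr)
open Vale.Agent.P218LB (lvl tendsto_lvl)
open Vale.Agent.P218ND (reV)

variable {S : Set E3} {w : E3 → ℝ} {δ C : ℝ} {ι κ M : Type} [Fintype ι] [Fintype κ]
  [DecidableEq ι] [TopologicalSpace M] [ChartedSpace E2 M] [T2Space M] [RSm E2 M] [CompactSpace M]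
  [MeasurableSpace M] [BorelSpace M] {m : Model S w δ C ι κ M} {τ : Type} [Fintype τ]

namespace Hub

lemma isOpen_Reg {W : ι → ℝ} (hW : ∀ i, m.w0 < W i) : IsOpen (Reg m W) := by
  have h : Reg m W = m.reg ∩ ⋂ i, ((m.φ (.inl i)).symm '' closedBall 0 (Real.exp (-W i)))ᶜ := by
    ext x
    refine and_congr_right fun hx => ?_
    simp only [mem_iInter, mem_compl_iff]
    refine forall_congr' fun i => ⟨?_, fun h p hp e => h ⟨pol p, ?_, e.symm⟩⟩
    · rintro h ⟨y, hy, rfl⟩
      have h0 : y ≠ 0 := fun e => hx (.inl i) (by rw [e])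
      obtain ⟨p, rfl⟩ : ∃ p, pol p = y := ⟨_, P218MP.pol_lp h0⟩
      rw [mem_closedBall_zero_iff, P218MP.norm_pol, Real.exp_le_exp, neg_le_neg_iff] at hy
      exact h p hy rfl
    · rwa [mem_closedBall_zero_iff, P218MP.norm_pol, Real.exp_le_exp, neg_le_neg_iff]
  rw [h]
  exact m.isOpen_reg.inter (isOpen_iInter_of_finite fun i =>
    ((isCompact_closedBall _ _).image_of_continuousOn ((m.φ _).continuousOn_symm.mono
      (P218CO.Ends.closedBall_sub (𝓔 := P218CO.ends m) _ (hW i)))).isClosed.isOpen_compl)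

variable (H : Hub m τ)

lemma lamR_eq (q : ℕ × (ι → ℝ) × (τ → ℝ)) (h : H.c.Ok (fun _ => lvl q.1 q.2) (ofReal q.2)) :
    H.lam (fun _ => lvl q.1 q.2) (ofReal q.2) = fun k => (H.lamR q.1 q.2 k : ℂ) :=
  funext fun k => P218VL.eq_ofReal (H.lam_real _ _ h k)

lemma lamR_zero : Tendsto (fun q : ℕ × (ι → ℝ) × (τ → ℝ) => H.lamR q.1 q.2) (atTop ×ˢ 𝓝 0) (𝓝 0) := by
  refine NormedAddGroup.tendsto_nhds_zero.2 fun ε hε => ?_
  filter_upwards [H.lam_hb.tendsto hε, H.c.ev_ok] with q h1 h2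
  rw [← norm_cpx, ← H.lamR_eq q h2, pi_norm_lt_iff hε]
  simpa only [H.lam_zero, Pi.zero_apply, sub_zero] using fun k => h1 k (mem_univ k)

lemma exists_lin {y : M} (hy : y ∈ m.reg) : ∃ LX : (ι → ℝ) × (τ → ℝ) →L[ℝ] E3,
    LinP (seqPar ((ι → ℝ) × (τ → ℝ))) (fun q => H.Xr q y) LX := by
  obtain ⟨gb, h1, -⟩ := H.hm_all hy
  obtain ⟨c', -, U, hU, h, -⟩ := Cst.exists_of_ev h1.hb
  refine ⟨reV.comp (((fderiv ℂ (fun z => gb z y) 0).restrictScalars ℝ).comp (ofL ι τ)), ?_⟩
  have h2 : (fun a : ℕ × (ι → ℝ) × (τ → ℝ) => H.X (fun _ => lvl a.1 a.2) (ofReal a.2) y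
      - H.X (fun _ => lvl a.1 (0 : (ι → ℝ) × (τ → ℝ))) (ofReal 0) y
      - fderiv ℂ (fun z => gb z y) 0 (ofReal a.2)) =o[atTop ×ˢ 𝓝 0] fun a => ‖a.2‖ :=
    IsLittleO.of_bound fun ε hε => (h.lin hε).mono fun a ha => by
      rw [norm_norm]; exact ha y (mem_of_mem_nhds hU)
  refine ((reV.isBigO_comp _ _).trans_isLittleO h2).congr_left fun a => ?_
  rw [map_sub, map_sub]
  rfl

variable {H} {f : (ι → ℝ) → Pt ι τ → ℂ}

lemma ActOut.grad_le (h : H.ActOut f) : ∃ C₀ : ℝ,
    ∀ᶠ q : ℕ × (ι → ℝ) × (τ → ℝ) in atTop ×ˢ 𝓝 0,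
      ‖fderiv ℂ (f fun _ => lvl q.1 q.2) (ofReal q.2)‖ ≤ C₀ * ‖H.lamR q.1 q.2‖ := by
  obtain ⟨c', h1, h2⟩ := h.grad
  have hr := H.c.r_pos
  have h3 := (H.mo_holo.differentiableAt (ball_mem_nhds _ hr)).continuousAt.norm.eventually_le_const
    (lt_add_one _)
  obtain ⟨ρ, hρ, h4⟩ := Metric.eventually_nhds_iff_ball.1 (h3.and (ball_mem_nhds _ hr))
  refine ⟨Fintype.card (τ ⊕ ι) * ((‖H.mo 0‖ + 1) / (ρ / 2)), ?_⟩
  filter_upwards [c'.ev_ok, Cst.ev_norm (half_pos hρ)] with q a1 a2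
  rw [(h2 _ _ a1).fderiv, H.lamR_eq q (h1.ok a1), mul_right_comm, mul_assoc, ← nsmul_eq_mul,
    ← Finset.card_univ]
  refine (norm_sum_le _ _).trans (Finset.sum_le_card_nsmul _ _ _ fun k _ => ?_)
  rw [norm_smul, Complex.norm_real]
  refine mul_le_mul (norm_le_pi_norm _ k) (P218CO.fderiv_le_inner (half_pos hρ)
    (differentiableOn_pi.1 (H.mo_holo.mono fun z hz => (h4 z hz).2) k)
    (fun z hz => (norm_le_pi_norm _ k).trans (h4 z hz).1)
    (mem_ball_zero_iff.2 (by rw [norm_ofReal]; linarith))) (norm_nonneg _) (norm_nonneg _)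

lemma ev_exp (A : ℝ) : ∀ᶠ v : ℝ in atTop,
    A * ∑ _i : ι, Real.exp (-v / 2) ≤ Real.exp (-(1 / 4) * v) := by
  have h : Tendsto (fun v : ℝ => A * Fintype.card ι * Real.exp (-(v / 4))) atTop (𝓝 0) := by
    simpa using (Real.tendsto_exp_neg_atTop_nhds_zero.comp
      (tendsto_id.atTop_div_const (show (0 : ℝ) < 4 by norm_num))).const_mul (A * Fintype.card ι)
  filter_upwards [h.eventually_le_const one_pos] with v hv
  rw [Finset.sum_const, Finset.card_univ, nsmul_eq_mul,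
    show -v / 2 = -(v / 4) + -(1 / 4) * v by ring, Real.exp_add, ← mul_assoc, ← mul_assoc]
  exact mul_le_of_le_one_left (Real.exp_pos _).le hv

/-- **The static construction gives uniqueness.** -/
theorem ActOut.uniqueModel (h : H.ActOut f) : UniqueModel S := by
  obtain ⟨R, hX, hW⟩ := P218A2.exists_realFam H
  obtain ⟨G⟩ := R.exists_geo
  refine Static.uniqueModel
    { R := R, e := H.eL, lam := H.lamR, D := coreK m.φ H.sd, R0 := √(4 * (H.sd + 1)), f := f
      u := fun b y => G.v b (m.F y)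
      W_eq := fun q => by rw [hW]
      e_cont := fun l => ?_, e_supp := fun l x hx => ?_, D_bd := fun y hy h1 => ?_
      e_D := fun l y hy h1 => ?_
      eqn := P218VL.eqn H hX hW
      lam_zero := H.lamR_zero
      loj := ?_
      grad := h.grad_le
      act := ⟨1 / 4, by norm_num, ?_⟩
      lim := fun ε hε => ?_
      lin := fun y hy => ?_
      rank := by simp [add_comm]
      l2 := P218VL.memLp_v H G hX
      vel := P218VL.vel H G hX
      pair := P218UX.pair H G hX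
      solv := fun g h1 h2 => by simpa only [eL_apply] using H.solv g h1 h2 } G
  · simp only [funext (H.eL_apply l)]
    exact continuous_finsetSum _ fun k _ => continuous_const.mul (H.e_cont k)
  · have := (Real.sqrt_le_left (norm_nonneg x)).1 hx
    simp [eL_apply, fun k => H.e_supp k x (by linarith)]
  · exact Real.le_sqrt_of_sq_le ((P218KE.below_iff m (by linarith [H.lt]) h1).1
      (P218VA.coreK_subset_coreO (lt_add_one _) hy)).le
  · simp [eL_apply, P218VL.e_zero H hy h1]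
  · obtain ⟨r, w1, C, C', k, c, B, hk, hc, h1, h2⟩ := h.tip
    obtain ⟨_, _, _, _, -, h3⟩ := P218TP.tipData_of h1 h2 hk hc
    exact h3.lojOut
  · obtain ⟨c', A, h1, h2⟩ := h.area
    filter_upwards [c'.ev_ok, tendsto_lvl.eventually (ev_exp (ι := ι) A)] with q a1 a2
    obtain ⟨a3, a4⟩ := h2 _ _ a1
    refine ⟨by linarith, le_trans ?_ (a4.trans (ENNReal.ofReal_le_ofReal (by linarith)))⟩
    refine (lintegral_mono_set (P218VL.Ex_subset hW q)).trans_eq (setLIntegral_congr_fun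
      (isOpen_Reg fun i => ?_).measurableSet fun y hy => ?_)
    · linarith [H.lt, H.le, H.le', ((h1.ok a1).1 i).1]
    · simp only [hX]
      exact congrArg (fun a : ℂ => ENNReal.ofReal a.re)
        (LagM_congr (P218VL.ev_real H (h1.ok a1) hy))
  · exact (((Complex.continuous_re.tendsto _).comp h.lim).eventually_le_const
      (lt_add_of_pos_right _ hε)).frequently
  · obtain ⟨LX, h1⟩ := H.exists_lin hy
    rw [← hX] at h1
    exact ⟨LX, h1, G.v_pt hy h1⟩

end Hub

/-- **The main theorem follows from the static construction.** -/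
theorem main_of_hub (h : ∀ (S : Set E3) (w : E3 → ℝ) (δ C : ℝ) (k l : ℕ) (M : Type)
    [TopologicalSpace M] [ChartedSpace E2 M] [T2Space M] [CompactSpace M] [RSm E2 M]
    [MeasurableSpace M] [BorelSpace M] (m : Model S w δ C (Fin k) (Fin l) M) (s0 : ℝ),
    ∃ (n : ℕ) (H : Hub m (Fin n)), s0 ≤ H.s) : Main :=
  main_of_static (fun _ => 0) fun S w δ C k l M _ _ _ _ _ _ _ m _ => by
    obtain ⟨s0, h1⟩ := P218AC.exists_action m
    obtain ⟨n, H, h2⟩ := h S w δ C k l M m s0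
    obtain ⟨f, h3⟩ := h1 _ H h2
    exact h3.uniqueModel

end Vale.Agent.P218ST
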