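import Vale.Agent.P218ST.Hub
import Vale.Agent.P218ST.Defs
import Vale.Agent.P218GS.Area
import Vale.Agent.P218SQ.Final
import Vale.Agent.P218TP.Res

/-! # Blueprint of the last steps (statements only; never import this file) -/

open Set Filter Topology Metric MeasureTheory
open scoped Matrix ContDiff

namespace Vale.Agent.P218ST.Plan

open Vale.Agent.P218GA Vale.Agent.P218HB Vale.Agent.P272.K.LIN Vale.Agent.P218GE
open Vale.Agent.P218SQ (Pt Adm ofReal SeqData)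
open Vale.Agent.P218VA (E2 C3 ELM LagM CkAt coreK)
open Vale.Agent.P218LB (lvl)

variable {S : Set E3} {w : E3 → ℝ} {δ C : ℝ} {ι κ M : Type} [Fintype ι] [Fintype κ]
  [DecidableEq ι] [TopologicalSpace M] [ChartedSpace E2 M] [T2Space M] [RSm E2 M] [CompactSpace M]
  [MeasurableSpace M] [BorelSpace M]

/-- (HUB) -/
theorem exists_hub (m : Model S w δ C ι κ M) (s0 : ℝ) :
    ∃ (n : ℕ) (H : Hub m (Fin n)), s0 ≤ H.s := sorry

/-- (ACT) -/
theorem exists_action (m : Model S w δ C ι κ M) : ∃ s0 : ℝ, ∀ (τ : Type) [Fintype τ]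
    (H : Hub m τ), s0 ≤ H.s → ∃ f : (ι → ℝ) → Pt ι τ → ℂ, H.ActOut f := sorry

variable {m : Model S w δ C ι κ M} {τ : Type} [Fintype τ] (H : Hub m τ)

/-- (REAL) -/
theorem exists_realFam : ∃ R : RealFam m (seqPar ((ι → ℝ) × (τ → ℝ))),
    R.X = H.Xr ∧ R.W = fun q => lvl q.1 q.2 := sorry

/-- (EQN) -/
theorem eqn {R : RealFam m (seqPar ((ι → ℝ) × (τ → ℝ)))} (G : Geo R) (hX : R.X = H.Xr)
    (hW : R.W = fun q => lvl q.1 q.2) :
    ∀ᶠ q : ℕ × (ι → ℝ) × (τ → ℝ) in atTop ×ˢ 𝓝 0, ∀ y ∈ R.Ex q,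
      (y ∈ coreK m.φ H.sd → ELM (fun z => cx (m.F z)) (fun z => cx (R.X q z)) y (cx (m.nu y))
        = (H.eL (H.lamR q.1 q.2) (m.F y) : ℝ)) ∧
      (y ∉ coreK m.φ H.sd → ∀ V, ELM (fun z => cx (m.F z)) (fun z => cx (R.X q z)) y V = 0) :=
  sorry

/-- (GROW) -/
theorem memLp_v {R : RealFam m (seqPar ((ι → ℝ) × (τ → ℝ)))} (G : Geo R) (hX : R.X = H.Xr)
    (b : (ι → ℝ) × (τ → ℝ)) : MemLp (fun x => G.v b (m.F x)) 2 m.mu0 := sorry

/-- (VEL) -/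
theorem vel {R : RealFam m (seqPar ((ι → ℝ) × (τ → ℝ)))} (G : Geo R) (hX : R.X = H.Xr)
    (b : (ι → ℝ) × (τ → ℝ)) : ∃ l, ∀ x ∈ m.reg, CkAt 2 (fun z => G.v b (m.F z)) x ∧
      P218ND.LM m (fun z => G.v b (m.F z)) x = H.eL l (m.F x) := sorry

/-- (PAIR) -/
theorem pair {R : RealFam m (seqPar ((ι → ℝ) × (τ → ℝ)))} (G : Geo R) (hX : R.X = H.Xr)
    (b : (ι → ℝ) × (τ → ℝ)) (h : ∀ l, ∫ x, G.v b (m.F x) * H.eL l (m.F x) ∂m.mu0 = 0) : b = 0 :=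
  sorry

/-- (GEO) -/
theorem nonempty_geo {P : Type} [NormedAddCommGroup P] [NormedSpace ℝ P] [FiniteDimensional ℝ P]
    (R : RealFam m (seqPar P)) : Nonempty (Geo R) := sorry

/-- (MAIN) -/
theorem main : Main := sorry

end Vale.Agent.P218ST.Plan
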